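import Vale.Agent.P002.Prod.Main

/-!
P002: potential density of integral points when the fundamental group is a finite product of free
products of cyclic groups (free and finitely generated abelian groups included), in every rank,
with quasi-unipotent classes prescribed at any of the generators or at none.
-/

namespace Vale.Agent.Results.P002.FreeProductsBoundary

open _root_.Vale.Agent.P002

universe u

/-- One number field makes the integral points dense in the set `Y` of semisimple representations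
with prescribed quasi-unipotent classes at generators, for every product of free products of
cyclic groups and every rank. -/
theorem result : ∀ (G : Type u) [Group G] (n : ℕ) (k : Fin n → ℕ) (m : ∀ i, Fin (k i) → ℕ)
    (e : G ≃* ((i : Fin n) → Monoid.CoprodI fun j => Multiplicative (ZMod (m i j))))
    (N : ℕ) (s : Fin N → G) (r b : ℕ) (γ : Fin b → Σ i : Fin n, Fin (k i)) (C : Fin b → SLC r),
    (∀ l, QuasiUnipotent (C l)) →
    ∃ L : IntermediateField ℚ ℂ, FiniteDimensional ℚ L ∧
      (∀ ρ : G →* SLC r, IntegralIn L ρ → ∀ f : MvPolynomial (Fin N × Fin r × Fin r) ℂ,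
        (∀ (P : SLC r) (σ : G →* SLC r),
          evalRep s f ((MulAut.conj P).toMonoidHom.comp σ) = evalRep s f σ) →
        (∀ e, MvPolynomial.coeff e f ∈ (algebraMap ℤ ℂ).range) →
        evalRep s f ρ ∈ L ∧ IsIntegral ℤ (evalRep s f ρ)) ∧
      ∀ f : MvPolynomial (Fin N × Fin r × Fin r) ℂ,
        (∀ (P : SLC r) (σ : G →* SLC r),
          evalRep s f ((MulAut.conj P).toMonoidHom.comp σ) = evalRep s f σ) →
        (∀ ρ, InY (fun l => e.symm (Pi.mulSingle (γ l).1 (gen (m (γ l).1) (γ l).2))) C ρ →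
          IntegralIn L ρ → evalRep s f ρ = 0) →
        ∀ ρ, InY (fun l => e.symm (Pi.mulSingle (γ l).1 (gen (m (γ l).1) (γ l).2))) C ρ →
          evalRep s f ρ = 0 := by
  intro G _ n k m e N s r b γ C hC
  obtain ⟨L, hL, hdense⟩ := dense_products m (fun x => e (s x)) r γ C hC
  have hev : ∀ f (ρ : G →* SLC r), evalRep (fun x => e (s x)) f (ρ.comp e.symm.toMonoidHom) =
      evalRep s f ρ := fun f ρ => by
    simp [evalRep]
  have hback : ∀ (ρ : ((i : Fin n) → Fac (m i)) →* SLC r),
      (ρ.comp e.toMonoidHom).comp e.symm.toMonoidHom = ρ := fun ρ => by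
    ext g : 1
    simp
  refine ⟨L, hL, ?_, fun f hinv hint ρ hY => ?_⟩
  · rintro ρ ⟨P, hP⟩ f hinv hf
    rw [← hinv P ρ, evalRep, MvPolynomial.eval_eq]
    refine ⟨sum_mem fun d _ => ?_, IsIntegral.sum _ fun d _ => ?_⟩
    · obtain ⟨c, hc⟩ := hf d
      rw [← hc, eq_intCast]
      exact mul_mem (intCast_mem _ c) (prod_mem fun x _ => pow_mem (hP (s x.1) x.2.1 x.2.2).1 _)
    · obtain ⟨c, hc⟩ := hf d
      rw [← hc]
      exact isIntegral_algebraMap.mul
        (IsIntegral.prod _ fun x _ => (hP (s x.1) x.2.1 x.2.2).2.pow _)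
  rw [← hev]
  refine hdense f (fun P σ => ?_) (fun σ hσY hint' => ?_) _
    ⟨fun W hW => ?_, fun l => hY.2 l⟩
  · rw [← hback σ, ← MonoidHom.comp_assoc, hev, hev, hinv]
  · rw [← hback σ, hev]
    obtain ⟨hσ, hσC⟩ := hσY
    refine hint _ ⟨fun W hW => ?_, fun l => by simpa using hσC l⟩ ?_
    · obtain ⟨W', hW', hc⟩ := hσ W fun g v hv => by simpa using hW (e.symm g) v hv
      exact ⟨W', fun g v hv => hW' (e g) v hv, hc⟩
    · obtain ⟨P, hP⟩ := hint'
      exact ⟨P, fun g => hP (e g)⟩
  · obtain ⟨W', hW', hc⟩ := hY.1 W fun g v hv => by simpa using hW (e g) v hv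
    exact ⟨W', fun g v hv => hW' (e.symm g) v hv, hc⟩

end Vale.Agent.Results.P002.FreeProductsBoundary
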