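import Vale.Agent.P002.NilDensity

/-!
P002: potential density of integral points for nilpotent fundamental groups, in every rank and
with arbitrary quasi-unipotent boundary conditions.
-/

namespace Vale.Agent.Results.P002.NilpotentDensity

open _root_.Vale.Agent.P002

universe u

/-- For a nilpotent finitely generated group, every rank and all quasi-unipotent boundary classes,
one number field makes the integral points dense in the set `Y` of semisimple representations. -/
theorem result : ∀ (G : Type u) [Group G] [Group.IsNilpotent G] (n : ℕ) (s : Fin n → G),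
    Subgroup.closure (Set.range s) = ⊤ →
    ∀ (r b : ℕ) (γ : Fin b → G) (C : Fin b → SLC r), (∀ i, QuasiUnipotent (C i)) →
    ∃ L : IntermediateField ℚ ℂ, FiniteDimensional ℚ L ∧
      (∀ ρ : G →* SLC r, IntegralIn L ρ → ∀ f : MvPolynomial (Fin n × Fin r × Fin r) ℂ,
        (∀ (P : SLC r) (σ : G →* SLC r),
          evalRep s f ((MulAut.conj P).toMonoidHom.comp σ) = evalRep s f σ) →
        (∀ e, MvPolynomial.coeff e f ∈ (algebraMap ℤ ℂ).range) →
        evalRep s f ρ ∈ L ∧ IsIntegral ℤ (evalRep s f ρ)) ∧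
      ∀ f : MvPolynomial (Fin n × Fin r × Fin r) ℂ,
        (∀ (P : SLC r) (σ : G →* SLC r),
          evalRep s f ((MulAut.conj P).toMonoidHom.comp σ) = evalRep s f σ) →
        (∀ ρ, InY γ C ρ → IntegralIn L ρ → evalRep s f ρ = 0) →
        ∀ ρ, InY γ C ρ → evalRep s f ρ = 0 := by
  intro G _ _ n s hs r b γ C hC
  obtain ⟨L, hL, hdense⟩ := dense_nilpotent s hs γ C hC
  refine ⟨L, hL, ?_, hdense⟩
  rintro ρ ⟨P, hP⟩ f hinv hf
  rw [← hinv P ρ, evalRep, MvPolynomial.eval_eq]
  refine ⟨sum_mem fun e _ => ?_, IsIntegral.sum _ fun e _ => ?_⟩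
  · obtain ⟨c, hc⟩ := hf e
    rw [← hc, eq_intCast]
    exact mul_mem (intCast_mem _ c) (prod_mem fun x _ => pow_mem (hP (s x.1) x.2.1 x.2.2).1 _)
  · obtain ⟨c, hc⟩ := hf e
    rw [← hc]
    exact isIntegral_algebraMap.mul
      (IsIntegral.prod _ fun x _ => (hP (s x.1) x.2.1 x.2.2).2.pow _)

end Vale.Agent.Results.P002.NilpotentDensity
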