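import Vale.Agent.P002.Punct.Main
import Vale.Agent.P002.Punct.BaseInt
import Vale.Agent.P002.Punct.Density
import Vale.Agent.P002.Punct.Good
import Vale.Agent.P002.Punct.Interior

/-!
P002: integral points are Zariski dense over one number field in the relative character varieties
of punctured surfaces of genus at least three, in every rank at least three, with quasi-unipotent
classes prescribed at all punctures.
-/

namespace Vale.Agent.Results.P002.PuncturedDensity

open _root_.Vale.Agent.P002 _root_.Vale.Agent.P002.Punct

/-- For genus and rank at least three, any number of punctures and any quasi-unipotent classes,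
some number field has Zariski dense integral points in the nonempty set of semisimple
representations with these classes. -/
theorem result : ∀ (g b r : ℕ), 3 ≤ g → 3 ≤ r → ∀ C : Fin b → SLC r, (∀ j, QuasiUnipotent (C j)) →
    (∃ ρ : PuncturedGroup g b →* SLC r, InY (loopElt g b) C ρ) ∧
    ∃ L : IntermediateField ℚ ℂ, FiniteDimensional ℚ L ∧
      ∀ (n : ℕ) (s : Fin n → PuncturedGroup g b) (f : MvPolynomial (Fin n × Fin r × Fin r) ℂ),
        (∀ ρ : PuncturedGroup g b →* SLC r, InY (loopElt g b) C ρ →
          (∀ a i j, (ρ a).1 i j ∈ L ∧ IsIntegral ℤ ((ρ a).1 i j)) → evalRep s f ρ = 0) →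
        ∀ ρ : PuncturedGroup g b →* SLC r, InY (loopElt g b) C ρ → evalRep s f ρ = 0 :=
  fun _ _ _ hg hr C hC => dense_punct base_spec open_spec good_spec density_spec hg hr C hC

end Vale.Agent.Results.P002.PuncturedDensity
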