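import Vale.Agent.P002.Surf.Main
import Vale.Agent.P002.Surf.Interior
import Vale.Agent.P002.Surf.Density
import Vale.Agent.P002.Surf.PairLemma
import Vale.Agent.P002.CurveProd.Dense

/-!
P002: integral points are Zariski dense in the character varieties of closed surface groups of
genus at least two, in every rank, over the field of rational numbers; and over one number field
for every finite product of surface groups and free groups, in every rank.
-/

namespace Vale.Agent.Results.P002.SurfaceDensity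

open _root_.Vale.Agent.P002 _root_.Vale.Agent.P002.Surf

universe u

/-- Over `ℚ` for one surface group, and over one number field for every finite product of surface
groups and free groups: vanishing at integral semisimple representations implies vanishing at all
semisimple representations. -/
theorem result :
    (∀ g r : ℕ, 2 ≤ g → 2 ≤ r → ∀ (n : ℕ) (s : Fin n → SurfaceGroup g)
      (f : MvPolynomial (Fin n × Fin r × Fin r) ℂ),
      (∀ ρ : SurfaceGroup g →* SLC r, Semisimple ρ →
        (∀ a i j, ∃ z : ℤ, (ρ a).1 i j = z) → evalRep s f ρ = 0) →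
      ∀ ρ : SurfaceGroup g →* SLC r, Semisimple ρ → evalRep s f ρ = 0) ∧
    ∀ (G : Type u) [Group G] (n : ℕ) (H : Fin n → Type) [∀ i, Group (H i)],
      (G ≃* ((i : Fin n) → H i)) →
      (∀ i, (∃ g, 2 ≤ g ∧ Nonempty (H i ≃* SurfaceGroup g)) ∨
        ∃ k : ℕ, Nonempty (H i ≃* FreeGroup (Fin k))) →
      ∀ r : ℕ, ∃ L : IntermediateField ℚ ℂ, FiniteDimensional ℚ L ∧
        ∀ (N : ℕ) (s : Fin N → G) (f : MvPolynomial (Fin N × Fin r × Fin r) ℂ),
          (∀ (P : SLC r) (σ : G →* SLC r),
            evalRep s f ((MulAut.conj P).toMonoidHom.comp σ) = evalRep s f σ) →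
          ((∀ e, MvPolynomial.coeff e f ∈ (algebraMap ℤ ℂ).range) →
              ∀ ρ : G →* SLC r, IntegralIn L ρ →
                evalRep s f ρ ∈ L ∧ IsIntegral ℤ (evalRep s f ρ)) ∧
            ((∀ ρ : G →* SLC r, Semisimple ρ → IntegralIn L ρ → evalRep s f ρ = 0) →
              ∀ ρ : G →* SLC r, Semisimple ρ → evalRep s f ρ = 0) := by
  refine ⟨fun _ _ hg hr _ s f hf ρ hρ =>
    dense_surface hg hr (exists_forced_open hg hr)
      (fun i0 _ hPo hPd hPs _ hx hx' => mem_closure_sl'
        (fun _ _ _ p hp _ hU hne hns => pair_velocity_bound p hp hU hne hns)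
        hg i0 _ hPo hPd hPs hx hx') s f hf ρ hρ, ?_⟩
  intro G _ n H _ e hH r
  have hC : ∀ i, CurveProd.CurveLike (H i) := fun i => by
    rcases hH i with ⟨g, hg, ⟨ψ⟩⟩ | ⟨k, ⟨ψ⟩⟩
    · exact (CurveProd.curveLike_surface hg).congr ψ
    · exact (CurveProd.curveLike_free k).congr ψ
  obtain ⟨L, hL, hdense⟩ := CurveProd.dense_curves hC r
  refine ⟨L, hL, fun N s f hinv => ⟨?_, fun hint ρ hρ => ?_⟩⟩
  · rintro hf ρ ⟨P, hP⟩
    rw [← hinv P ρ, evalRep, MvPolynomial.eval_eq]
    refine ⟨sum_mem fun d _ => ?_, IsIntegral.sum _ fun d _ => ?_⟩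
    · obtain ⟨c, hc⟩ := hf d
      rw [← hc, eq_intCast]
      exact mul_mem (intCast_mem _ c) (prod_mem fun x _ => pow_mem (hP (s x.1) x.2.1 x.2.2).1 _)
    · obtain ⟨c, hc⟩ := hf d
      rw [← hc]
      exact isIntegral_algebraMap.mul
        (IsIntegral.prod _ fun x _ => (hP (s x.1) x.2.1 x.2.2).2.pow _)
  have hev : ∀ (τ : G →* SLC r),
      evalRep (fun x => e (s x)) f (τ.comp e.symm.toMonoidHom) = evalRep s f τ := fun τ => by
    simp [evalRep]
  have hback : ∀ (τ : ((i : Fin n) → H i) →* SLC r),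
      (τ.comp e.toMonoidHom).comp e.symm.toMonoidHom = τ := fun τ => by
    ext y : 1
    simp
  rw [← hev]
  refine hdense N _ f (fun P σ => ?_) (fun σ hσ hint' => ?_) _ fun W hW => ?_
  · rw [← hback σ, ← MonoidHom.comp_assoc, hev, hev, hinv]
  · rw [← hback σ, hev]
    refine hint _ (fun W hW => ?_) ?_
    · obtain ⟨W', hW', hc⟩ := hσ W fun y v hv => by simpa using hW (e.symm y) v hv
      exact ⟨W', fun y v hv => hW' (e y) v hv, hc⟩
    · obtain ⟨P, hP⟩ := hint'
      exact ⟨P, fun y => hP (e y)⟩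
  · obtain ⟨W', hW', hc⟩ := hρ W fun y v hv => by simpa using hW (e y) v hv
    exact ⟨W', fun y v hv => hW' (e.symm y) v hv, hc⟩

end Vale.Agent.Results.P002.SurfaceDensity
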